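import Vale.Agent.N248F.Top

/-!
# P248: the symmetric Mahler conjecture and the functional Mahler inequalities
-/

open MeasureTheory Vale.Agent.N248F

/-- (1) Q1 with its equality case, and a symmetric body that meets every integer hyperplane has
volume at least `2^n / n!`; (2) the least functional volume product of an even log-concave
function is `4^n`; (3) the least one of a log-concave function is `e^n`. -/
theorem Vale.Agent.N248F.oldFunctional (n : ℕ) (hn : 1 ≤ n) :
    (∀ K : Set (EuclideanSpace ℝ (Fin n)), IsCompact K → Convex ℝ K → (interior K).Nonempty →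
      (∀ x ∈ K, -x ∈ K) →
      ENNReal.ofReal ((4 : ℝ) ^ n / n.factorial) ≤ bodyProduct K ∧
      (bodyProduct K = ENNReal.ofReal ((4 : ℝ) ^ n / n.factorial) ↔
        ∃ (H : Set (EuclideanSpace ℝ (Fin n)))
          (T : EuclideanSpace ℝ (Fin n) ≃ₗ[ℝ] EuclideanSpace ℝ (Fin n)),
          Vale.Agent.P248Z.Han.IsHanner n H ∧ K = T '' H) ∧
      ((∀ m : Fin n → ℤ, m ≠ 0 → ∃ x ∈ K, ∑ i, (m i : ℝ) * x i = 1) →
        ENNReal.ofReal ((2 : ℝ) ^ n / n.factorial) ≤ volume K)) ∧
    IsLeast {p | ∃ f : EuclideanSpace ℝ (Fin n) → ℝ, LogConcave f ∧ (∀ x, f (-x) = f x) ∧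
      0 < mass f ∧ mass f < ⊤ ∧ p = funProduct f} (ENNReal.ofReal ((4 : ℝ) ^ n)) ∧
    IsLeast {p | ∃ f : EuclideanSpace ℝ (Fin n) → ℝ, LogConcave f ∧
      0 < mass f ∧ mass f < ⊤ ∧ p = funProduct f} (ENNReal.ofReal (Real.exp n)) := by
  refine ⟨fun K h1 h2 h3 h4 => ?_, even_least mb_sym fib_sym n, gen_least genM n⟩
  have h := Vale.Agent.Results.P248.ASymmetricMahler.result n hn K h1 h2 h3 (eq_neg_of h4)
  exact ⟨h.1, h.2, hyperplanes h.1 h4⟩
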